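import Vale.Agent.P269CM.Psi

/-!
# P269, block C, row BASN: transport of differentials along isomorphisms of smooth fibres
-/

noncomputable section

namespace Vale.Agent.P269CM

open Set Filter Asymptotics Vale.Agent.P269C Vale.Agent.P273.H183 Vale.Agent.P272.K
open Vale.Agent.P269CV (ev_self ev_fib ev_ev fh_congr co_congr dr_ne dr_of om_fh fh_mul fh_comp)
open scoped Topology ContDiff Matrix

variable {L L' : Type} {m m' g : ℕ} {C : Fam L m} {C' : Fam L' m'} {b : Cm m} {b' : Cm m'}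
  {Φ : C.X → C'.X} {Ψ : C'.X → C.X} {η : Df C} {p : C.X}

theorem ev_mem (hp : p ∈ C.fib b) : ∀ᶠ q in nf C p, q ∈ C.fib b :=
  ev_fib.mono fun _ hq => hq.trans hp

theorem Om.congr (h : Om C b η) (hp : p ∈ C.fib b) {z w : C.X → ℂ} (hz : Co C z p)
    (e : ∀ q ∈ C.fib b, w q = z q) : η w p = η z p := by
  have e1 : w =ᶠ[nf C p] z := (ev_mem hp).mono e
  rw [(h p hp).1 w z 1 (co_congr hz e1) hz (dr_congr (dr_refl p z) .rfl e1), one_mul]

theorem chart_mul {U : Set C.X} {x y : C.X → ℂ} {t : Cm m → ℂ} (h : IsChart C.π C.hol U x y t)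
    (hp : p ∈ U) : x p * y p = t (C.π p) := by
  obtain ⟨W, -, hW⟩ := (h.2.2.2.1 U subset_rfl).1 h.1
  exact (hW.subset ⟨p, hp, rfl⟩).2

/-- differentials on smooth fibres -/
theorem om_of_sm (k2 : K2) (hC : C.IsStable) (hs : Sm C b)
    (h1 : ∀ p ∈ C.fib b, ∀ z w c, Co C z p → Co C w p → Dr C w z p c → η z p = c * η w p)
    (h2 : ∀ p ∈ C.fib b, ∀ z, Co C z p → FH C (η z) p) : Om C b η := fun p hp => by
  refine ⟨h1 p hp, fun U x y t hU hpU => ?_⟩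
  have hU' : ∀ q ∈ U, ∀ᶠ r in nf C q, r ∈ U := fun q hq =>
    mem_nhdsWithin_of_mem_nhds (hU.1.mem_nhds hq)
  have key : ∀ q ∈ U, q ∈ C.fib b → x q ≠ 0 → y q ≠ 0 → η x q * x q = -(η y q * y q) := by
    intro q hq hq' hx hy
    have c1 := ((k2.sp hC hU hq).1 hx).2
    have h3 : Dr C y x q (t (C.π q) * -(x q ^ 2)⁻¹) := by
      refine dr_of hC c1 ((hasDerivAt_inv hx).const_mul (t (C.π q))) ?_
      filter_upwards [hU' q hq, ev_fib, (k2.fc hC c1.1).1.eventually_ne hx] with r r1 r2 r3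
      rw [← r2, ← chart_mul hU r1, mul_comm (x r), mul_inv_cancel_right₀ r3]
    rw [h1 q hq' x y _ c1 ((k2.sp hC hU hq).2 hy).2 h3, ← chart_mul hU hq]
    field_simp
  rcases hs p hp U x y t hU hpU with hx | hy
  · have c1 := ((k2.sp hC hU hpU).1 hx).2
    refine ⟨fun q => η x q * x q, fh_mul hC (h2 p hp x c1) c1.1, ?_⟩
    filter_upwards [hU' p hpU, ev_mem hp, (k2.fc hC c1.1).1.eventually_ne hx] with q q1 q2 q3
    exact ⟨fun _ => rfl, fun k => by rw [key q q1 q2 q3 k, neg_neg]⟩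
  · have c1 := ((k2.sp hC hU hpU).2 hy).2
    refine ⟨fun q => -(η y q * y q), fh_comp hC (fh_mul hC (h2 p hp y c1) c1.1)
      (ξ := fun s => -s) analyticAt_id.neg, ?_⟩
    filter_upwards [hU' p hpU, ev_mem hp, (k2.fc hC c1.1).1.eventually_ne hy] with q q1 q2 q3
    exact ⟨fun k => key q q1 q2 k q3, fun _ => (neg_neg _).symm⟩

/-- inverse isomorphisms of fibres -/
structure Tr (C : Fam L m) (b : Cm m) (C' : Fam L' m') (b' : Cm m') (Φ : C.X → C'.X)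
    (Ψ : C'.X → C.X) : Prop where
  maps : ∀ p ∈ C.fib b, Φ p ∈ C'.fib b'
  maps' : ∀ q ∈ C'.fib b', Ψ q ∈ C.fib b
  left : ∀ p ∈ C.fib b, Ψ (Φ p) = p
  right : ∀ q ∈ C'.fib b', Φ (Ψ q) = q
  fh : ∀ p ∈ C.fib b, ∀ f, FH C' f (Φ p) ↔ FH C (fun q => f (Φ q)) p
  co : ∀ p ∈ C.fib b, ∀ z, Co C' z (Φ p) ↔ Co C (fun q => z (Φ q)) p
  dr : ∀ p ∈ C.fib b, ∀ f z c,
    Dr C' f z (Φ p) c ↔ Dr C (fun q => f (Φ q)) (fun q => z (Φ q)) p c

namespace Tr

theorem ev (h : Tr C b C' b' Φ Ψ) (hp : p ∈ C.fib b) (f : C.X → ℂ) :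
    (fun q => f (Ψ (Φ q))) =ᶠ[nf C p] f := (ev_mem hp).mono fun q hq => by simp only [h.left q hq]

theorem symm (h : Tr C b C' b' Φ Ψ) : Tr C' b' C b Ψ Φ := by
  refine ⟨h.maps', h.maps, h.right, h.left, fun q hq f => ?_, fun q hq f => ?_,
    fun q hq f z c => ?_⟩
  all_goals
    have hp := h.maps' q hq
    conv_rhs => rw [← h.right q hq]
  · rw [h.fh _ hp]
    exact ⟨fun k => fh_congr k (h.ev hp f), fun k => fh_congr k (h.ev hp f).symm⟩
  · rw [h.co _ hp]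
    exact ⟨fun k => co_congr k (h.ev hp f), fun k => co_congr k (h.ev hp f).symm⟩
  · rw [h.dr _ hp]
    exact ⟨fun k => dr_congr k (h.ev hp f) (h.ev hp z),
      fun k => dr_congr k (h.ev hp f).symm (h.ev hp z).symm⟩

theorem co' (h : Tr C b C' b' Φ Ψ) (hp : p ∈ C.fib b) {z : C.X → ℂ} (hz : Co C z p) :
    Co C' (fun q => z (Ψ q)) (Φ p) := (h.co p hp _).2 (co_congr hz (h.ev hp z))

theorem om (k2 : K2) (h : Tr C b C' b' Φ Ψ) (hC : C.IsStable) (hC' : C'.IsStable) (hs : Sm C b)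
    {η : Df C'} (hη : Om C' b' η) : Om C b fun z p => η (fun q => z (Ψ q)) (Φ p) := by
  refine om_of_sm k2 hC hs (fun p hp z w c hz hw hd => ?_) fun p hp z hz => ?_
  · exact (hη _ (h.maps p hp)).1 _ _ c (h.co' hp hz) (h.co' hp hw)
      ((h.dr p hp _ _ c).2 (dr_congr hd (h.ev hp w) (h.ev hp z)))
  · have h1 : C'.π (Φ p) = b' := h.maps p hp
    exact (h.fh p hp _).1 (om_fh hC' (h1 ▸ hη) (h.co' hp hz))

theorem bas (k2 : K2) (h : Tr C b C' b' Φ Ψ) (hC : C.IsStable) (hC' : C'.IsStable) (hs : Sm C b)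
    (hs' : Sm C' b') {e : Fin g → Df C'} (he : Bas C' b' e) :
    Bas C b fun j z p => e j (fun q => z (Ψ q)) (Φ p) := by
  refine ⟨fun j => h.om k2 hC hC' hs (he.1 j), fun η hη => ?_⟩
  refine (existsUnique_congr fun c => ⟨fun k p hp z hz => ?_, fun k q hq z hz => ?_⟩).1
    (he.2 _ (h.symm.om k2 hC' hC hs' hη))
  · rw [← k _ (h.maps p hp) _ (h.co' hp hz), h.left p hp]
    exact (Om.congr hη hp hz fun q hq => by rw [h.left q hq]).symm
  · rw [k _ (h.maps' q hq) _ (h.symm.co' hq hz)]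
    refine Finset.sum_congr rfl fun j _ => congrArg _ ?_
    simp only [h.right q hq]
    exact Om.congr (he.1 j) hq hz fun r hr => by rw [h.right r hr]

end Tr

theorem ex_tr (k1 : K1) (hC : C.IsStable) (hC' : C'.IsStable) (hb : b ∈ C.B)
    (h : Is (fg C) b (fg C') b' Φ) : ∃ Ψ, Tr C b C' b' Φ Ψ := by
  have : Nonempty C.X := ⟨(hC.2.2.2.2.2 b hb).1.nonempty.some⟩
  have h1 : BijOn Φ (C.fib b) (C'.fib b') := k1.mem h
  have h2 := h1.invOn_invFunOn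
  exact ⟨Function.invFunOn Φ (C.fib b), h1.mapsTo, h1.surjOn.mapsTo_invFunOn, h2.1, h2.2,
    fun p hp => (k1.nf hC hC' h p hp).2.1, fun p hp => (k1.nf hC hC' h p hp).2.2.1,
    fun p hp => (k1.nf hC hC' h p hp).2.2.2.1⟩

theorem sm_tr (k1 : K1) (hC : C.IsStable) (hC' : C'.IsStable) (h : Is (fg C) b (fg C') b' Φ) :
    Sm C' b' ↔ Sm C b := by
  have h1 : BijOn Φ (C.fib b) (C'.fib b') := k1.mem h
  refine ⟨fun k p hp => (k1.nf hC hC' h p hp).2.2.2.2.1 (k _ (h1.mapsTo hp)), fun k q hq => ?_⟩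
  obtain ⟨p, hp, rfl⟩ := h1.surjOn hq
  exact (k1.nf hC hC' h p hp).2.2.2.2.2 (k p hp)

/-- **row BASN** -/
theorem basn_of (k1 : K1) (k2 : K2) : BASN := by
  intro L L' m m' g C C' b b' Φ e hC hC' hb hs h he
  obtain ⟨Ψ, hT⟩ := ex_tr k1 hC hC' hb h
  refine ⟨_, hT.bas k2 hC hC' hs ((sm_tr k1 hC hC' h).2 hs) he, fun p hp z z' hz hzz j => ?_⟩
  refine (Om.congr (he.1 j) (hT.maps p hp) (hT.co' hp hz) fun q hq => ?_).symm
  rw [hzz _ (hT.maps' q hq), hT.right q hq]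

end Vale.Agent.P269CM
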