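import Vale.Agent.P269C.Spec
import Vale.Agent.P269CV.Co

/-!
# P269, block C, row PSI: the forms `psi`
-/

noncomputable section

namespace Vale.Agent.P269CM

open Set Filter Asymptotics Vale.Agent.P269C Vale.Agent.P273.H183 Vale.Agent.P272.K
open Vale.Agent.P269CV (ev_self ev_fib fh_congr co_congr dr_ne)
open scoped Topology ContDiff Matrix

variable {L : Type} {m m' : ℕ} {h : Hm L} {C : Fam L m} {b : Cm m}

theorem two_le : (2 : WithTop ℕ∞) ≤ ∞ := by norm_cast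

theorem dr_congr {p : C.X} {f f' z z' : C.X → ℂ} {c : ℂ} (h : Dr C f z p c)
    (e : f' =ᶠ[nf C p] f) (e' : z' =ᶠ[nf C p] z) : Dr C f' z' p c := by
  refine IsLittleO.congr' h ?_ ?_
  · filter_upwards [e, e'] with q h1 h2
    rw [h1, h2, ev_self e, ev_self e']
  · filter_upwards [e'] with q h2
    rw [h2, ev_self e']

theorem dr_refl (p : C.X) (z : C.X → ℂ) : Dr C z z p 1 := by
  simp only [Dr, one_mul, sub_self]
  exact isLittleO_zero _ _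

theorem st_π (hC : C.IsStable) (hb : b ∈ C.B) (i : L) : C.π (C.s i b) = b :=
  ((hC.2.2.2.2.2 b hb).2.1 i).1

theorem st_cont (hC : C.IsStable) (hb : b ∈ C.B) (i : L) : ContinuousAt (C.s i) b :=
  ((hC.2.2.2.2.2 b hb).2.1 i).2.1

theorem st_an (hC : C.IsStable) (hb : b ∈ C.B) (i : L) {f : C.X → ℂ} (hf : C.hol f (C.s i b)) :
    AnalyticAt ℂ (fun a => f (C.s i a)) b := ((hC.2.2.2.2.2 b hb).2.1 i).2.2.1 f hf

theorem st_sp (hC : C.IsStable) (hb : b ∈ C.B) (i : L) : Sp C (C.s i b) :=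
  ((hC.2.2.2.2.2 b hb).2.1 i).2.2.2.2

theorem st_ev (k2 : K2) (hC : C.IsStable) (hb : b ∈ C.B) {i : L} {z : C.X → ℂ}
    (h1 : C.hol z (C.s i b)) (h2 : Co C z (C.s i b)) :
    ∀ᶠ a in 𝓝 b, a ∈ C.B ∧ C.hol z (C.s i a) ∧ Co C z (C.s i a) :=
  Eventually.and (hC.1.mem_nhds hb) ((st_cont hC hb i).eventually (k2.ev hC h1 h2))

theorem log_sm (hh : IsPsi h) (hC : C.IsStable) (hb : b ∈ C.B) {i : L} {z : C.X → ℂ}
    (h1 : C.hol z (C.s i b)) (h2 : Co C z (C.s i b)) :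
    ContDiffAt ℝ ∞ (fun a => Real.log (h m C a i z)) b :=
  (hh.2 m C hC b hb i z h1 h2).2.log (hh.2 m C hC b hb i z h1 h2).1.ne'

theorem psi_eq (chn : CHN) (k1 : K1) (k2 : K2) (hh : IsPsi h) (hC : C.IsStable) (hb : b ∈ C.B)
    (i : L) (z : C.X → ℂ) (h1 : C.hol z (C.s i b)) (h2 : Co C z (C.s i b)) :
    psi h C b i = -dd (fun a => Real.log (h m C a i z)) b := by
  obtain ⟨k3, k4⟩ := Classical.epsilon_spec (p := fun z => C.hol z (C.s i b) ∧ Co C z (C.s i b))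
    ⟨z, h1, h2⟩
  rw [psi]
  generalize Classical.epsilon (fun z => C.hol z (C.s i b) ∧ Co C z (C.s i b)) = w at k3 k4 ⊢
  have hw := hh.2 m C hC b hb i w k3 k4
  rw [chn.line _ b (hw.2.of_le two_le) hw.1]
  obtain ⟨c, hc, hd⟩ := k2.drh hC h1 h2 k3
  have ha := st_an hC hb i hc
  have h0 : c (C.s i b) ≠ 0 := dr_ne hC h2 k4 hd.self_of_nhds
  have e : (fun a => Real.log (h m C a i w)) =ᶠ[𝓝 b]
      fun a => Real.log (‖c (C.s i a)‖ ^ 2) + Real.log (h m C a i z) := by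
    filter_upwards [st_ev k2 hC hb h1 h2, st_ev k2 hC hb k3 k4, (st_cont hC hb i).eventually hd,
      ha.continuousAt.eventually_ne h0] with a a1 a2 a3 a4
    rw [hh.1 m m C C a a _ (k1.refl C a) i w z z _ (st_π hC a1.1) a2.2.2 a1.2.2 (fun _ => rfl) a3,
      Real.log_mul (pow_ne_zero _ (norm_ne_zero_iff.2 a4))
        (hh.2 m C hC a a1.1 i z a1.2.1 a1.2.2).1.ne']
  rw [chn.ddc _ _ b e, (chn.dda _ _ b (((ha.contDiffAt.restrict_scalars ℝ).norm_sq ℝ).log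
    (pow_ne_zero _ (norm_ne_zero_iff.2 h0))) ((log_sm hh hC hb h1 h2).of_le two_le)).1,
    chn.ddh _ b ha h0, zero_add]

theorem psi_gd (chn : CHN) (k1 : K1) (k2 : K2) (hh : IsPsi h) (hC : C.IsStable) (hb : b ∈ C.B)
    (i : L) : Gd b fun a => psi h C a i := by
  obtain ⟨z, h1, h2⟩ := k2.ex hC (st_sp hC hb i)
  have hz := hh.2 m C hC b hb i z h1 h2
  refine (Gd.ch 1 1 (fun a => !![(h m C a i z : ℂ)]) (fun p q => ?_) ?_).congr ?_
  · simp only [Matrix.of_apply, Matrix.cons_val', Matrix.cons_val_fin_one]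
    exact Complex.ofRealCLM.contDiff.contDiffAt.comp b hz.2
  · rw [Matrix.det_fin_one_of]
    exact Complex.ofReal_ne_zero.2 hz.1.ne'
  · filter_upwards [st_ev k2 hC hb h1 h2] with a ha
    have h3 := hh.2 m C hC a ha.1 i z ha.2.1 ha.2.2
    rw [psi_eq chn k1 k2 hh hC ha.1 i z ha.2.1 ha.2.2, chn.line _ a (h3.2.of_le two_le) h3.1]

theorem psi_nat (chn : CHN) (k1 : K1) (k2 : K2) {C' : Fam L m'} {φ : Cm m' → Cm m}
    {Φ : C'.X → C.X} (hh : IsPsi h) (hC : C.IsStable) (hC' : C'.IsStable) {b : Cm m'}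
    (hb : b ∈ C'.B) (hM : ∀ᶠ a in 𝓝 b, Mor C' C φ Φ a) (i : L) :
    psi h C' b i = pb (jac φ b) (psi h C (φ b) i) := by
  have h0 := hM.self_of_nhds
  obtain ⟨z, h1, h2⟩ := k2.ex hC (st_sp hC h0.1 i)
  have hs : ∀ a ∈ C'.B, Mor C' C φ Φ a → Φ (C'.s i a) = C.s i (φ a) := fun a ha k =>
    (k1.fg.1 k.2.2.1).2 i (st_π hC' ha i)
  have hco : ∀ a ∈ C'.B, Mor C' C φ Φ a → Co C z (C.s i (φ a)) →
      Co C' (fun q => z (Φ q)) (C'.s i a) := fun a ha k h3 =>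
    ((k1.nf hC' hC (k1.fg.1 k.2.2.1).1 _ (st_π hC' ha i)).2.2.1 z).1 (by rwa [hs a ha k])
  have h3 : C'.hol (fun q => z (Φ q)) (C'.s i b) :=
    (h0.2.2.2 _ (st_π hC' hb i)).2 z (by rwa [hs b hb h0])
  rw [psi_eq chn k1 k2 hh hC' hb i _ h3 (hco b hb h0 h2), psi_eq chn k1 k2 hh hC h0.1 i z h1 h2,
    map_neg, ← chn.ddn φ b _ h0.2.1 ((log_sm hh hC h0.1 h1 h2).of_le two_le)]
  refine congrArg _ (chn.ddc _ _ b ?_)
  filter_upwards [hM, hC'.1.mem_nhds hb, h0.2.1.continuousAt.eventually (st_ev k2 hC h0.1 h1 h2)]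
    with a a1 a2 a3
  rw [hh.1 m' m C' C a (φ a) _ a1.2.2.1 i _ (fun q => z (Φ q)) z 1 (st_π hC' a2)
    (hco a a2 a1 a3.2.2) a3.2.2 (fun _ => rfl) (dr_refl _ _), norm_one, one_pow, one_mul]

/-- **row PSI** -/
theorem psi_of (chn : CHN) (k1 : K1) (k2 : K2) : PSI :=
  ⟨fun hh hC _ hb => psi_eq chn k1 k2 hh hC hb, fun hh hC _ hb => psi_gd chn k1 k2 hh hC hb,
    fun hh hC hC' _ hb => psi_nat chn k1 k2 hh hC hC' hb⟩

end Vale.Agent.P269CM
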